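import Vale.Agent.P371EX.E

/-!
Exclusion of more than `m` eigenvalues: assembly.
-/

namespace Vale.Agent.P371EX

open MeasureTheory Filter Topology Matrix Set
open Vale.Agent.P371 Vale.Agent.P371.G Vale.Agent.P371.PI Vale.Agent.P371E
open scoped ComplexOrder MatrixOrder Matrix.Norms.L2Operator

variable {m N : ℕ}

theorem tail {g : ℝ → ℝ} (hg : Integrable g volume) (h0 : ∀ x, 0 ≤ g x) {η : ℝ} (hη : 0 < η) :
    ∃ R : ℝ, 1 ≤ R ∧ ∀ u v : ℝ, u ≤ -R → R ≤ v → (∫ x, g x) - ∫ x in u..v, g x ≤ η := by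
  have h := intervalIntegral_tendsto_integral hg tendsto_neg_atTop_atBot tendsto_id
  have h1 := h.eventually (lt_mem_nhds (show (∫ x, g x) - η < ∫ x, g x by linarith))
  obtain ⟨R, hR1, hR2⟩ := (h1.and (eventually_ge_atTop 1)).exists
  refine ⟨R, hR2, fun u v hu hv => ?_⟩
  have h2 : ∫ x in (-R)..R, g x ≤ ∫ x in u..v, g x :=
    intervalIntegral.integral_mono_interval hu (by linarith) hv (Eventually.of_forall h0)
      hg.intervalIntegrable
  simp only [id] at hR1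
  linarith

theorem tail_cmb {f f' : Fin N → ℝ → Vec m} (hf : ∀ j, IsH1 (f j) (f' j)) (ho : Orth f)
    {a : Vec N} (ha : ‖a‖ = 1) {u v : ℝ} (huv : u ≤ v) :
    1 - ∫ x in u..v, ‖cmb f a x‖ ^ 2 ≤ (∫ x, rho f x) - ∫ x in u..v, rho f x := by
  have hm : ∀ j, MemLp (f j) 2 volume := fun j => (hf j).memLp
  have i1 := integrable_rho hf
  have i2 := integrable_norm_sq (memLp_cmb hm a)
  have h := int_le (g := fun x => rho f x - ‖cmb f a x‖ ^ 2) (i1.sub i2) (fun x => by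
    have := norm_cmb_sq_le f a x
    rw [ha] at this
    linarith) huv
  rw [intervalIntegral.integral_sub i1.intervalIntegrable i2.intervalIntegrable,
    integral_sub i1 i2, integral_norm_cmb hm ho, ha] at h
  linarith

theorem exists_pt {g : ℝ → ℝ} {R σ : ℝ} (hR : 1 ≤ R) (hg : ContinuousOn g (Icc (-R) R))
    (h0 : ∀ x, 0 ≤ g x) (hσ : ∫ x in (-R)..R, g x ≤ σ) : ∃ x ∈ Icc (0 : ℝ) 1, g x ≤ σ := by
  have hs : Icc (0 : ℝ) 1 ⊆ Icc (-R) R := Icc_subset_Icc (by linarith) hR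
  obtain ⟨x, hx, hm⟩ := isCompact_Icc.exists_isMinOn (nonempty_Icc.mpr zero_le_one) (hg.mono hs)
  refine ⟨x, hx, ?_⟩
  have hi : IntervalIntegrable g volume (-R) R :=
    (hg.mono (by rw [uIcc_of_le (by linarith)])).intervalIntegrable
  have hi1 : IntervalIntegrable g volume 0 1 :=
    ((hg.mono hs).mono (by rw [uIcc_of_le zero_le_one])).intervalIntegrable
  have h1 := intervalIntegral.integral_mono_on zero_le_one (intervalIntegrable_const (c := g x)) hi1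
    fun y hy => hm hy
  have h2 : ∫ x in (0 : ℝ)..1, g x ≤ ∫ x in (-R)..R, g x :=
    intervalIntegral.integral_mono_interval (by linarith) zero_le_one hR
      (Eventually.of_forall h0) hi
  rw [intervalIntegral.integral_const, sub_zero, one_smul] at h1
  linarith

theorem exc_of (hR : RR) (hA : APX) (hF : FORM) : EXC := by
  intro γ hγ hγ' m W hW lam0 f0 f0' hS0
  obtain ⟨-, P, hP⟩ := hF (γ + 1 / 2) (by linarith) m W hW
  obtain ⟨C, hC0, hC⟩ := hR γ hγ hγ' m (m + 1) W lam0 hS0.neg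
  obtain ⟨C1, hC10, hC1⟩ := hC 1 one_pos
  set B : ℝ := |Bd γ W| with hB
  have hB0 : 0 ≤ B := abs_nonneg _
  set A : ℝ := C1 * B + 1 with hAd
  have hf0 : ∀ j, IsH1 (f0 j) (f0' j) := fun j => (hS0.eig j).isH1
  have iρ := integrable_rho hf0
  obtain ⟨R0, hR0, hT0⟩ := tail iρ (rho_nonneg f0) (η := 1 / 2) (by norm_num)
  obtain ⟨s0, hs0, -, hs0'⟩ := exists_small (g := fun s => 2 * R0 * ((R0 + 1) * s) ^ 2)
    (by fun_prop) (t := 1 / 2) (by norm_num)
  obtain ⟨s, hs, -, hs'⟩ := exists_small (g := fun s => s / 2 * ((A * B * C) ^ 2 + 1))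
    (by fun_prop) (t := s0 ^ 2 / 2) (by rw [zero_div, zero_mul]; positivity)
  obtain ⟨η, hη, -, hη'⟩ := exists_small (g := fun η => 2 * η * (P * (A * C)) + 1 / (2 * s) * η
    + s / 2 * ((A * B * C) ^ 2 + 1)) (by fun_prop) (t := s0 ^ 2 / 2) (by linarith)
  obtain ⟨R1, hR1, hT1⟩ := tail iρ (rho_nonneg f0) hη
  obtain ⟨bp, hbp1, hbp2⟩ := tendsto_rho_atTop hf0
  obtain ⟨bm, hbm1, hbm2⟩ := tendsto_rho_atBot hf0
  have hη2 : 0 < η ^ 2 := by positivity
  obtain ⟨kp, hv1, hv2, hv3⟩ := ((hbp2.eventually (gt_mem_nhds hη2)).and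
    ((hbp1.eventually_ge_atTop R0).and (hbp1.eventually_ge_atTop R1))).exists
  obtain ⟨km, hu1, hu2, hu3⟩ := ((hbm2.eventually (gt_mem_nhds hη2)).and
    ((hbm1.eventually_le_atBot (-R0)).and (hbm1.eventually_le_atBot (-R1)))).exists
  set u := bm km
  set v := bp kp
  set R : ℝ := max (-u) v with hRd
  have huR : -R ≤ u := by linarith [le_max_left (-u) v]
  have hvR : v ≤ R := le_max_right _ _
  have huv : u ≤ v := by linarith
  have hR1' : 1 ≤ R := by linarith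
  obtain ⟨τ, hτ, -, hτ'⟩ := exists_small (g := fun τ => 2 * η * (P * (A * C)) + 1 / (2 * s) * η
    + s / 2 * ((A * B * C) ^ 2 + 1) + 2 * R * (P * (2 * τ * C)) ^ 2
    + 1 / s * (2 * R * (P * (2 * (τ * B) * C)) ^ 2)) (by fun_prop) (t := s0 ^ 2 / 2)
    (by simp only [mul_zero, zero_mul, ne_eq, OfNat.ofNat_ne_zero, not_false_eq_true, zero_pow,
          add_zero]; exact hη')
  obtain ⟨Ct, hCt0, hCt⟩ := hC τ hτ
  obtain ⟨C2, hC20, hC2⟩ := ode_c (ν := γ - 1 / 2) (B := B) (R := R) (by linarith) hB0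
    (by linarith)
  obtain ⟨σ, hσ, -, hσ'⟩ := exists_small (g := fun σ => 2 * η * (P * (A * C)) + C * √σ
    + 1 / (2 * s) * η + s / 2 * ((A * B * C) ^ 2 + 1)
    + (C ^ 2 * σ + 2 * R * (P * (Ct * (C2 * σ * C) + 2 * τ * C)) ^ 2)
    + 1 / s * ((B * C) ^ 2 * σ + 2 * R * (P * (A * (C2 * σ * C) + (Ct * (C2 * σ * C)
      + 2 * (τ * B) * C))) ^ 2)) (by fun_prop) (t := s0 ^ 2 / 2)
    (by simp only [mul_zero, zero_mul, Real.sqrt_zero, zero_add, add_zero]; exact hτ')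
  obtain ⟨δ, hδ, hδ'⟩ := hA γ hγ hγ' m W hW R σ (by linarith) hσ
  refine ⟨δ, hδ, fun L lam f f' hS hext => ?_⟩
  by_contra hcon
  obtain ⟨ε, V, K, r, F, h⟩ := hδ' _ lam f f' hS (not_le.mp hcon).le
  have hf : ∀ j, IsH1 (f j) (f' j) := fun j => (hS.eig j).isH1
  have hKB : ‖K‖ ≤ B := h.Kn.trans (le_abs_self _)
  have hFB : ∀ x ∈ Icc (-R) R, ‖F x‖ ≤ B := fun x hx =>
    (norm_F_le h.Kp.posSemidef (h.sand x hx)).trans hKB
  have hFc : ContinuousOn F (Icc (-R) R) := fun x hx => (h.der x hx).continuousAt.continuousWithinAt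
  have hQc := continuous_regQ h.eps hf r h.Vc
  obtain ⟨x0, hx0, hx0'⟩ := exists_pt hR1' (continuousOn_eta (K := K) (γ - 1 / 2) hFc
    hQc.continuousOn) (fun x => add_nonneg (norm_nonneg _) (norm_nonneg _)) h.d4
  have hx0R : x0 ∈ Icc (-R) R := ⟨by linarith [hx0.1], by linarith [hx0.2]⟩
  obtain ⟨a, ha, ha0⟩ := exists_ker (psiM f0 x0)
  obtain ⟨⟨r1, r2, hr, hr1, hr2⟩, hc⟩ := hCt L lam f f' R σ ε V K r F h hS.neg fun j => (hext j).1
  obtain ⟨⟨q1, q2, hq, hq1, hq2⟩, -⟩ := hC1 L lam f f' R σ ε V K r F h hS.neg fun j => (hext j).1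
  obtain ⟨c, hc1, hc2, hc3⟩ := hc a
  rw [ha, mul_one] at hc2
  rw [ha, one_pow, mul_one] at hc3
  have e1 : cmb f (ext0 L a) = cmb f0 a := cmb_ext0 (fun j => (hext j).2.1) a
  have e2 : cmb f' (ext0 L a) = cmb f0' a := cmb_ext0 (fun j => (hext j).2.2) a
  have hKK : (K - K).PosSemidef ∧ (K + K).PosSemidef :=
    ⟨by rw [sub_self]; exact PosSemidef.zero, h.Kp.posSemidef.add h.Kp.posSemidef⟩
  have hrA : ∀ G : Mat (m + 1 + L) (m + 1 + L), (K - G).PosSemidef ∧ (K + G).PosSemidef →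
      ‖r * G‖ ≤ A := by
    intro G hG
    rw [hq, Matrix.add_mul]
    refine (norm_add_le _ _).trans (add_le_add ((norm_mul_le _ _).trans ?_) (hq2 G hG.1 hG.2))
    exact mul_le_mul hq1 ((norm_F_le h.Kp.posSemidef hG).trans hKB) (norm_nonneg _) hC10
  have hQ0 : Matrix.toEuclideanLin (regQ ε (psiM f x0 * r) (V x0)) c = 0 := by
    have h1 : Matrix.toEuclideanLin (psiM f x0 * r) c = 0 := by
      rw [tl_mul, hc1]
      exact (congrFun e1 x0).trans ha0
    rw [regQ, regV_conjTranspose, tl_mul, tl_mul (regS ε (psiM f x0 * r)), h1, map_zero, map_zero]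
  have hD := hC2 _ K F _ c σ x0 h.der hQc hFB hx0R hQ0 hx0' h.d4
  have hα : C2 * σ * ‖c‖ ≤ C2 * σ * C := mul_le_mul_of_nonneg_left hc2 (by positivity)
  have hpt : ∀ x, rho f0 x < η ^ 2 → ‖cmb f (ext0 L a) x‖ ≤ η := by
    intro x hx
    have h1 := norm_cmb_sq_le f0 a x
    rw [ha, one_pow, mul_one] at h1
    rw [e1]
    exact (pow_le_pow_iff_left₀ (norm_nonneg _) hη.le two_ne_zero).mp (h1.trans hx.le)
  have hE := est hf hS.on (hP _ lam f f' hS) huR huv hvR hx0R hr hr1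
    (fun x hx => hr2 _ (h.sand x hx).1 (h.sand x hx).2) (hr2 _ hKK.1 hKK.2)
    (fun x hx => hrA _ (h.sand x hx)) (hrA _ hKK) hFB hKB hc1 hc2 ((norm_ext0 L a).trans ha)
    (fun x hx => ⟨(hD x hx).1.trans hα, (hD x hx).2.trans hα⟩) h.d2i h.d2 hc3 (hpt u hu1)
    (hpt v hv1) (by rw [e1]; exact (tail_cmb hf0 hS0.on ha huv).trans (hT1 u v hu3 hv3)) hs
  rw [e2] at hE
  have hy := isH1_cmb hf0 a
  have h1 : ∫ x in (-R0)..R0, ‖cmb f0' a x‖ ^ 2 ≤ ∫ x in u..v, ‖cmb f0' a x‖ ^ 2 :=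
    intervalIntegral.integral_mono_interval hu2 (by linarith) hv2
      (Eventually.of_forall fun x => by positivity)
      (integrable_norm_sq hy.memLp_deriv).intervalIntegrable
  have h2 := poinc hy (R := R0) (x0 := x0) ⟨by linarith [hx0.1], by linarith [hx0.2]⟩ ha0 hs0
    (by linarith)
  have h3 := (tail_cmb hf0 hS0.on ha (u := -R0) (v := R0) (by linarith)).trans
    (hT0 _ _ le_rfl le_rfl)
  linarith

end Vale.Agent.P371EX
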