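import Vale.Agent.P371E.Spec

/-!
Exclusion of more than `m` eigenvalues: the analytic lemmas.
-/

namespace Vale.Agent.P371EX

open MeasureTheory Filter Topology Matrix Set
open Vale.Agent.P371 Vale.Agent.P371.G Vale.Agent.P371.PI Vale.Agent.P371E
open scoped ComplexOrder MatrixOrder Matrix.Norms.L2Operator

variable {m N : ℕ}

theorem young {a b s : ℝ} (hs : 0 < s) : a * b ≤ s / 2 * a ^ 2 + 1 / (2 * s) * b ^ 2 := by
  have h : s / 2 * a ^ 2 + 1 / (2 * s) * b ^ 2 - a * b = (s * a - b) ^ 2 / (2 * s) := by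
    field_simp
    ring
  have h2 : 0 ≤ (s * a - b) ^ 2 / (2 * s) := by positivity
  linarith

theorem abs_re_inner (u v : Vec m) : |(inner ℂ u v : ℂ).re| ≤ ‖u‖ * ‖v‖ :=
  (Complex.abs_re_le_norm _).trans (norm_inner_le_norm _ _)

theorem int_le {g : ℝ → ℝ} (hg : Integrable g volume) (h0 : ∀ x, 0 ≤ g x) {u v : ℝ}
    (huv : u ≤ v) : ∫ x in u..v, g x ≤ ∫ x, g x := by
  rw [intervalIntegral.integral_of_le huv]
  exact setIntegral_le_integral hg (Eventually.of_forall h0)

theorem integrable_re_inner {y w : ℝ → Vec m} (hy : MemLp y 2 volume) (hw : MemLp w 2 volume) :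
    Integrable (fun x => (inner ℂ (y x) (w x) : ℂ).re) volume :=
  (integrable_inner_of_memLp_self hy hw).re

theorem core {y y' z z' w : ℝ → Vec m} (hy : IsH1 y y') (hz : IsH1 z z') (hw : MemLp w 2 volume)
    {u v s : ℝ} (huv : u ≤ v) (hs : 0 < s) :
    1 / 2 * ∫ x in u..v, ‖y' x‖ ^ 2 ≤ ‖y u‖ * ‖z u‖ + ‖y v‖ * ‖z v‖
      - (∫ x, (inner ℂ (y x) (w x) : ℂ).re)
      + 1 / (2 * s) * ((∫ x, ‖y x‖ ^ 2) - ∫ x in u..v, ‖y x‖ ^ 2) + s / 2 * (∫ x, ‖w x‖ ^ 2)
      + 1 / 2 * (∫ x in u..v, ‖y' x - z x‖ ^ 2) + s / 2 * (∫ x, ‖y x‖ ^ 2)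
      + 1 / (2 * s) * ∫ x in u..v, ‖z' x - w x‖ ^ 2 := by
  have h1 := inner_ftc hy hz u v
  have iy := integrable_norm_sq hy.memLp
  have iy' := integrable_norm_sq hy.memLp_deriv
  have iw := integrable_norm_sq hw
  have iyz : Integrable (fun x => ‖y' x - z x‖ ^ 2) volume :=
    integrable_norm_sq (hy.memLp_deriv.sub hz.memLp)
  have izw : Integrable (fun x => ‖z' x - w x‖ ^ 2) volume :=
    integrable_norm_sq (hz.memLp_deriv.sub hw)
  have iyw := integrable_re_inner hy.memLp hw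
  have h2 : ∫ x in u..v, (1 / 2 * ‖y' x‖ ^ 2 - 1 / 2 * ‖y' x - z x‖ ^ 2
      + (inner ℂ (y x) (w x) : ℂ).re - (s / 2 * ‖y x‖ ^ 2 + 1 / (2 * s) * ‖z' x - w x‖ ^ 2)) ≤
      ∫ x in u..v, ((inner ℂ (y' x) (z x) : ℂ).re + (inner ℂ (y x) (z' x) : ℂ).re) := by
    refine intervalIntegral.integral_mono_on huv ?_ ?_ fun x _ => ?_
    · exact ((((iy'.const_mul _).sub (iyz.const_mul _)).add iyw).sub
        ((iy.const_mul _).add (izw.const_mul _))).intervalIntegrable
    · exact ((integrable_re_inner hy.memLp_deriv hz.memLp).add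
        (integrable_re_inner hy.memLp hz.memLp_deriv)).intervalIntegrable
    · have e2 := norm_sub_sq (𝕜 := ℂ) (y' x) (z x)
      simp only [RCLike.re_to_complex] at e2
      have e3 : (inner ℂ (y x) (z' x) : ℂ).re = (inner ℂ (y x) (w x) : ℂ).re
          + (inner ℂ (y x) (z' x - w x) : ℂ).re := by
        rw [inner_sub_right, Complex.sub_re]
        ring
      have e4 := (abs_le.mp (abs_re_inner (y x) (z' x - w x))).1
      have e5 := young (a := ‖y x‖) (b := ‖z' x - w x‖) hs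
      have e6 := sq_nonneg ‖z x‖
      linarith
  have jy := iy.intervalIntegrable (a := u) (b := v)
  have jy' := iy'.intervalIntegrable (a := u) (b := v)
  have jw := iw.intervalIntegrable (a := u) (b := v)
  have jyz := iyz.intervalIntegrable (a := u) (b := v)
  have jzw := izw.intervalIntegrable (a := u) (b := v)
  have jyw := iyw.intervalIntegrable (a := u) (b := v)
  rw [intervalIntegral.integral_sub (((jy'.const_mul _).sub (jyz.const_mul _)).add jyw)
      ((jy.const_mul _).add (jzw.const_mul _)),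
    intervalIntegral.integral_add ((jy'.const_mul _).sub (jyz.const_mul _)) jyw,
    intervalIntegral.integral_sub (jy'.const_mul _) (jyz.const_mul _),
    intervalIntegral.integral_add (jy.const_mul _) (jzw.const_mul _), h1] at h2
  simp only [intervalIntegral.integral_const_mul] at h2
  have h3 := int_le (g := fun x => s / 2 * ‖w x‖ ^ 2 + 1 / (2 * s) * ‖y x‖ ^ 2
      - (inner ℂ (y x) (w x) : ℂ).re) (((iw.const_mul _).add (iy.const_mul _)).sub iyw)
    (fun x => by
      have e4 := (abs_le.mp (abs_re_inner (y x) (w x))).2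
      have e5 := young (a := ‖w x‖) (b := ‖y x‖) hs
      linarith) huv
  have k1 : Integrable (fun x => s / 2 * ‖w x‖ ^ 2 + 1 / (2 * s) * ‖y x‖ ^ 2) volume :=
    (iw.const_mul _).add (iy.const_mul _)
  rw [intervalIntegral.integral_sub ((jw.const_mul _).add (jy.const_mul _)) jyw,
    intervalIntegral.integral_add (jw.const_mul _) (jy.const_mul _), integral_sub k1 iyw,
    integral_add (iw.const_mul _) (iy.const_mul _)] at h3
  simp only [intervalIntegral.integral_const_mul, integral_const_mul] at h3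
  have h4 : 0 ≤ s / 2 * ∫ x in u..v, ‖w x‖ ^ 2 :=
    mul_nonneg (by positivity) (intervalIntegral.integral_nonneg huv fun x _ => by positivity)
  have h5 : s / 2 * ∫ x in u..v, ‖y x‖ ^ 2 ≤ s / 2 * ∫ x, ‖y x‖ ^ 2 :=
    mul_le_mul_of_nonneg_left (int_le iy (fun x => by positivity) huv) (by positivity)
  have h6 := (abs_le.mp (abs_re_inner (y v) (z v))).2
  have h7 := (abs_le.mp (abs_re_inner (y u) (z u))).1
  linarith

theorem poinc {y y' : ℝ → Vec m} (hy : IsH1 y y') {R x0 s : ℝ} (hx0 : x0 ∈ Icc (-R) R)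
    (h0 : y x0 = 0) (hs : 0 < s) (hT : ∫ x in (-R)..R, ‖y' x‖ ^ 2 ≤ s ^ 2) :
    ∫ x in (-R)..R, ‖y x‖ ^ 2 ≤ 2 * R * ((R + 1) * s) ^ 2 := by
  have hR : -R ≤ R := hx0.1.trans hx0.2
  have hi := (hy.intervalIntegrable_deriv (-R) R).norm
  have iy' := integrable_norm_sq hy.memLp_deriv
  have hJ : ∫ x in (-R)..R, ‖y' x‖ ≤ (R + 1) * s := by
    have h1 : ∫ x in (-R)..R, ‖y' x‖ ≤ ∫ x in (-R)..R, (s / 2 + 1 / (2 * s) * ‖y' x‖ ^ 2) := by
      refine intervalIntegral.integral_mono_on hR hi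
        (intervalIntegrable_const.add (iy'.const_mul _).intervalIntegrable) fun x _ => ?_
      have := young (a := 1) (b := ‖y' x‖) hs
      linarith
    rw [intervalIntegral.integral_add intervalIntegrable_const
      (iy'.const_mul _).intervalIntegrable, intervalIntegral.integral_const,
      intervalIntegral.integral_const_mul, smul_eq_mul] at h1
    have h2 : 1 / (2 * s) * ∫ x in (-R)..R, ‖y' x‖ ^ 2 ≤ 1 / (2 * s) * s ^ 2 :=
      mul_le_mul_of_nonneg_left hT (by positivity)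
    have h3 : 1 / (2 * s) * s ^ 2 = s / 2 := by field_simp
    linarith
  have hp : ∀ x ∈ Icc (-R) R, ‖y x‖ ^ 2 ≤ ((R + 1) * s) ^ 2 := by
    intro x hx
    refine pow_le_pow_left₀ (norm_nonneg _) (le_trans ?_ hJ) 2
    have h1 := hy.ftc x0 x
    rw [h0, sub_zero] at h1
    rw [h1]
    refine intervalIntegral.norm_integral_le_abs_integral_norm.trans ?_
    refine (intervalIntegral.abs_integral_mono_interval (c := -R) (d := R) ?_
      (Eventually.of_forall fun _ => norm_nonneg _) hi).trans (abs_of_nonneg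
        (intervalIntegral.integral_nonneg hR fun _ _ => norm_nonneg _)).le
    rw [uIoc_of_le hR]
    exact Ioc_subset_Ioc (le_min hx0.1 hx.1) (max_le hx0.2 hx.2)
  have h := intervalIntegral.integral_mono_on hR
    (integrable_norm_sq hy.memLp).intervalIntegrable intervalIntegrable_const hp
  rw [intervalIntegral.integral_const, smul_eq_mul] at h
  linarith

/-- the combination `Ψ b` -/
noncomputable def cmb (f : Fin N → ℝ → Vec m) (b : Vec N) (x : ℝ) : Vec m :=
  Matrix.toEuclideanLin (psiM f x) b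

theorem cmb_eq (f : Fin N → ℝ → Vec m) (b : Vec N) (x : ℝ) : cmb f b x = ∑ j, b j • f j x := by
  ext i
  simp only [cmb, Matrix.toLpLin_apply, Matrix.mulVec, dotProduct, psiM, Matrix.of_apply,
    WithLp.ofLp_sum, WithLp.ofLp_smul, Finset.sum_apply, Pi.smul_apply, smul_eq_mul]
  exact Finset.sum_congr rfl fun j _ => mul_comm _ _

theorem memLp_cmb {f : Fin N → ℝ → Vec m} (hf : ∀ j, MemLp (f j) 2 volume) (b : Vec N) :
    MemLp (cmb f b) 2 volume := by
  have e : cmb f b = fun x => ∑ j, b j • f j x := funext fun x => cmb_eq f b x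
  rw [e]
  exact memLp_finsetSum _ fun j _ => (hf j).const_smul (b j)

theorem isH1_cmb {f f' : Fin N → ℝ → Vec m} (hf : ∀ j, IsH1 (f j) (f' j)) (b : Vec N) :
    IsH1 (cmb f b) (cmb f' b) where
  memLp := memLp_cmb (fun j => (hf j).memLp) b
  memLp_deriv := memLp_cmb (fun j => (hf j).memLp_deriv) b
  ftc u v := by
    simp only [cmb_eq]
    rw [intervalIntegral.integral_finsetSum (f := fun j x => b j • f' j x) fun j _ =>
      ((hf j).intervalIntegrable_deriv u v).smul (b j), ← Finset.sum_sub_distrib]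
    refine Finset.sum_congr rfl fun j _ => ?_
    rw [← smul_sub, (hf j).ftc u v, intervalIntegral.integral_smul]

theorem integral_inner_cmb {f : Fin N → ℝ → Vec m} (hf : ∀ j, MemLp (f j) 2 volume) (ho : Orth f)
    (b c : Vec N) : ∫ x, (inner ℂ (cmb f b x) (cmb f c x) : ℂ) = inner ℂ b c := by
  have hi : ∀ j i, Integrable (fun x => c j * ((starRingEnd ℂ) (b i) *
      (inner ℂ (f i x) (f j x) : ℂ))) volume := fun j i =>
    ((integrable_inner_of_memLp_self (hf i) (hf j)).const_mul _).const_mul _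
  simp only [cmb_eq, sum_inner, inner_sum, inner_smul_left, inner_smul_right, Finset.mul_sum]
  rw [integral_finsetSum _ fun i _ => integrable_finsetSum _ fun j _ => hi i j, PiLp.inner_apply]
  refine Finset.sum_congr rfl fun i _ => ?_
  rw [integral_finsetSum _ fun j _ => hi i j]
  have ho' : ∀ i j, ∫ x, inner ℂ (f i x) (f j x) = if i = j then (1 : ℂ) else 0 := ho
  simp only [integral_const_mul, ho', mul_ite, mul_one, mul_zero, Finset.sum_ite_eq',
    Finset.mem_univ, if_true, RCLike.inner_apply]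

theorem integral_re_inner_cmb {f : Fin N → ℝ → Vec m} (hf : ∀ j, MemLp (f j) 2 volume)
    (ho : Orth f) (b c : Vec N) :
    ∫ x, (inner ℂ (cmb f b x) (cmb f c x) : ℂ).re = (inner ℂ b c : ℂ).re := by
  rw [← integral_inner_cmb hf ho b c]
  exact integral_re (integrable_inner_of_memLp_self (memLp_cmb hf b) (memLp_cmb hf c))

theorem integral_norm_cmb {f : Fin N → ℝ → Vec m} (hf : ∀ j, MemLp (f j) 2 volume)
    (ho : Orth f) (b : Vec N) : ∫ x, ‖cmb f b x‖ ^ 2 = ‖b‖ ^ 2 := by
  have h := integral_inner_cmb hf ho b b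
  rw [integral_inner_self, inner_self_re'] at h
  exact_mod_cast h

theorem norm_cmb_sq_le (f : Fin N → ℝ → Vec m) (b : Vec N) (x : ℝ) :
    ‖cmb f b x‖ ^ 2 ≤ rho f x * ‖b‖ ^ 2 := by
  rw [cmb_eq, rho, EuclideanSpace.norm_sq_eq b, mul_comm]
  refine le_trans (pow_le_pow_left₀ (norm_nonneg _) (norm_sum_le _ _) 2) ?_
  simp only [norm_smul]
  exact Finset.sum_mul_sq_le_sq_mul_sq _ _ _

theorem norm_tl {k l : ℕ} (A : Mat k l) (v : Vec l) :
    ‖Matrix.toEuclideanLin A v‖ ≤ ‖A‖ * ‖v‖ := l2_opNorm_mulVec A v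

theorem tl_mul {k l n : ℕ} (A : Mat k l) (B : Mat l n) (v : Vec n) :
    Matrix.toEuclideanLin (A * B) v = Matrix.toEuclideanLin A (Matrix.toEuclideanLin B v) := by
  ext i
  simp only [Matrix.toLpLin_apply, Matrix.mulVec_mulVec]

theorem norm_sq_le_hs {k l : ℕ} (A : Mat k l) : ‖A‖ ^ 2 ≤ hs A := by
  rw [sq, ← l2_opNorm_conjTranspose_mul_self]
  exact norm_le_trace (posSemidef_conjTranspose_mul_self A)

theorem exists_small {g : ℝ → ℝ} (hg : ContinuousAt g 0) {t : ℝ} (h : g 0 < t) :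
    ∃ s : ℝ, 0 < s ∧ s ≤ 1 ∧ g s < t := by
  have h1 : ∀ᶠ s in 𝓝[>] (0 : ℝ), g s < t :=
    (hg.eventually_lt continuousAt_const h).filter_mono nhdsWithin_le_nhds
  have h2 : ∀ᶠ s in 𝓝[>] (0 : ℝ), s ∈ Ioc (0 : ℝ) 1 := Ioc_mem_nhdsGT one_pos
  obtain ⟨s, hs1, hs2⟩ := (h1.and h2).exists
  exact ⟨s, hs2.1, hs2.2, hs1⟩

end Vale.Agent.P371EX
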