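import Vale.Agent.P371EX.RS

/-!
Exclusion of more than `m` eigenvalues: the main estimate for one approximant.
-/

namespace Vale.Agent.P371EX

open MeasureTheory Filter Topology Matrix Set
open Vale.Agent.P371 Vale.Agent.P371.G Vale.Agent.P371.PI Vale.Agent.P371E
open scoped ComplexOrder MatrixOrder Matrix.Norms.L2Operator

variable {m N : ℕ}

theorem hs_nonneg {k l : ℕ} (A : Mat k l) : 0 ≤ hs A := (sq_nonneg _).trans (norm_sq_le_hs A)

theorem tl_add {k l : ℕ} (A B : Mat k l) (v : Vec l) : Matrix.toEuclideanLin (A + B) v =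
    Matrix.toEuclideanLin A v + Matrix.toEuclideanLin B v := by
  rw [map_add]; rfl

theorem tl_sub {k l : ℕ} (A B : Mat k l) (v : Vec l) : Matrix.toEuclideanLin (A - B) v =
    Matrix.toEuclideanLin A v - Matrix.toEuclideanLin B v := by
  rw [map_sub]; rfl

theorem norm_tl' {k l : ℕ} {A : Mat k l} {v : Vec l} {a b : ℝ} (hA : ‖A‖ ≤ a) (hv : ‖v‖ ≤ b) :
    ‖Matrix.toEuclideanLin A v‖ ≤ a * b :=
  (norm_tl A v).trans (mul_le_mul hA hv (norm_nonneg _) ((norm_nonneg _).trans hA))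

theorem sq_bound2 {k l : ℕ} (E : Mat k l) {v : Vec l} {q : Vec k} {a b : ℝ} (hv : ‖v‖ ≤ a)
    (hq : ‖q‖ ≤ b) : ‖Matrix.toEuclideanLin E v + q‖ ^ 2 ≤ 2 * a ^ 2 * hs E + 2 * b ^ 2 := by
  have h1 : ‖Matrix.toEuclideanLin E v + q‖ ≤ ‖E‖ * a + b :=
    (norm_add_le _ _).trans (add_le_add (norm_tl' le_rfl hv) hq)
  have h2 := pow_le_pow_left₀ (norm_nonneg _) h1 2
  have h3 := mul_le_mul_of_nonneg_left (norm_sq_le_hs E) (sq_nonneg a)
  nlinarith [sq_nonneg (‖E‖ * a - b)]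

theorem intb {g h : ℝ → ℝ} {R u v σ c1 c2 : ℝ} (hu : -R ≤ u) (huv : u ≤ v) (hv : v ≤ R)
    (hg : Integrable g volume) (hh : IntervalIntegrable h volume (-R) R) (h0 : ∀ x, 0 ≤ h x)
    (hσ : ∫ x in (-R)..R, h x ≤ σ) (hc1 : 0 ≤ c1) (hc2 : 0 ≤ c2)
    (hb : ∀ x ∈ Icc (-R) R, g x ≤ c1 * h x + c2) : ∫ x in u..v, g x ≤ c1 * σ + 2 * R * c2 := by
  have hR : -R ≤ R := hu.trans (huv.trans hv)
  have hh' : IntervalIntegrable h volume u v := hh.mono_set (by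
    rw [uIcc_of_le huv, uIcc_of_le hR]
    exact Icc_subset_Icc hu hv)
  have h1 := intervalIntegral.integral_mono_on huv hg.intervalIntegrable
    ((hh'.const_mul c1).add intervalIntegrable_const) fun x hx => hb x (Icc_subset_Icc hu hv hx)
  rw [intervalIntegral.integral_add (hh'.const_mul c1) intervalIntegrable_const,
    intervalIntegral.integral_const_mul, intervalIntegral.integral_const, smul_eq_mul] at h1
  have h2 : ∫ x in u..v, h x ≤ ∫ x in (-R)..R, h x :=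
    intervalIntegral.integral_mono_interval hu huv hv (Eventually.of_forall h0) hh
  have h3 := mul_le_mul_of_nonneg_left (h2.trans hσ) hc1
  have h4 : (v - u) * c2 ≤ 2 * R * c2 := mul_le_mul_of_nonneg_right (by linarith) hc2
  linarith

theorem est {f f' : Fin N → ℝ → Vec m} (hf : ∀ j, IsH1 (f j) (f' j)) (ho : Orth f) {P : ℝ}
    (hP : ∀ x, ‖psiM f x‖ ≤ P) {K r r1 r2 : Mat N N} {F : ℝ → Mat N N}
    {R u v x0 σ τ Ct A B C α η s κ : ℝ} {a c : Vec N} (hu : -R ≤ u) (huv : u ≤ v) (hv : v ≤ R)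
    (hx0 : x0 ∈ Icc (-R) R) (hr : r = r1 + r2) (hr1 : ‖r1‖ ≤ Ct)
    (hr2 : ∀ x ∈ Icc (-R) R, ‖r2 * F x‖ ≤ τ) (hr2K : ‖r2 * K‖ ≤ τ)
    (hA : ∀ x ∈ Icc (-R) R, ‖r * F x‖ ≤ A) (hAK : ‖r * K‖ ≤ A)
    (hB : ∀ x ∈ Icc (-R) R, ‖F x‖ ≤ B) (hBK : ‖K‖ ≤ B) (hc : Matrix.toEuclideanLin r c = a)
    (hcn : ‖c‖ ≤ C) (ha : ‖a‖ = 1)
    (hD : ∀ x ∈ Icc (-R) R, ‖Matrix.toEuclideanLin (K * K - F x * F x) c‖ ≤ α ∧
      ‖Matrix.toEuclideanLin (F x - F x0) c‖ ≤ α)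
    (d2i : IntervalIntegrable (fun x => hs (psiM f' x * r - psiM f x * r * F x)) volume (-R) R)
    (d2 : ∫ x in (-R)..R, hs (psiM f' x * r - psiM f x * r * F x) ≤ σ)
    (hκ : -κ ≤ (inner ℂ a (Matrix.toEuclideanLin (r * (K * K)) c) : ℂ).re)
    (h1 : ‖cmb f a u‖ ≤ η) (h2 : ‖cmb f a v‖ ≤ η) (h3 : 1 - ∫ x in u..v, ‖cmb f a x‖ ^ 2 ≤ η)
    (hs0 : 0 < s) :
    1 / 2 * ∫ x in u..v, ‖cmb f' a x‖ ^ 2 ≤ 2 * η * (P * (A * C)) + κ + 1 / (2 * s) * η
      + s / 2 * ((A * B * C) ^ 2 + 1) + (C ^ 2 * σ + 2 * R * (P * (Ct * α + 2 * τ * C)) ^ 2)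
      + 1 / s * ((B * C) ^ 2 * σ + 2 * R * (P * (A * α + (Ct * α + 2 * (τ * B) * C))) ^ 2) := by
  have hm : ∀ j, MemLp (f j) 2 volume := fun j => (hf j).memLp
  set b0 := Matrix.toEuclideanLin (r * F x0) c with hb0
  set b2 := Matrix.toEuclideanLin (r * (K * K)) c with hb2
  have hy := isH1_cmb hf a
  have hz := isH1_cmb hf b0
  have hw := memLp_cmb hm b2
  have h := core hy hz hw huv hs0
  rw [integral_re_inner_cmb hm ho, integral_norm_cmb hm ho, integral_norm_cmb hm ho, ha] at h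
  have hη : 0 ≤ η := (norm_nonneg _).trans h1
  have hτ : 0 ≤ τ := (norm_nonneg _).trans hr2K
  have hA0 : 0 ≤ A := (norm_nonneg _).trans hAK
  have hzb : ∀ x, ‖cmb f b0 x‖ ≤ P * (A * C) := fun x => norm_tl' (hP x) (norm_tl' (hA x0 hx0) hcn)
  have t1 := mul_le_mul h1 (hzb u) (norm_nonneg _) hη
  have t2 := mul_le_mul h2 (hzb v) (norm_nonneg _) hη
  have t3 : 1 / (2 * s) * (1 ^ 2 - ∫ x in u..v, ‖cmb f a x‖ ^ 2) ≤ 1 / (2 * s) * η :=
    mul_le_mul_of_nonneg_left (by linarith) (by positivity)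
  have t4 : s / 2 * ‖b2‖ ^ 2 ≤ s / 2 * (A * B * C) ^ 2 := by
    refine mul_le_mul_of_nonneg_left (pow_le_pow_left₀ (norm_nonneg _) (norm_tl' ?_ hcn) 2)
      (by positivity)
    rw [← Matrix.mul_assoc]
    exact (norm_mul_le _ _).trans (mul_le_mul hAK hBK (norm_nonneg _) hA0)
  have key : ∀ (X Y Z : Mat N N) (t : ℝ), r2 * X = Y - Z → ‖Y‖ ≤ t → ‖Z‖ ≤ t →
      ‖Matrix.toEuclideanLin X c‖ ≤ α → ‖Matrix.toEuclideanLin (r * X) c‖ ≤ Ct * α + 2 * t * C := by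
    intro X Y Z t e hY hZ hX
    rw [hr, Matrix.add_mul, tl_add, tl_mul r1, e]
    refine (norm_add_le _ _).trans (add_le_add (norm_tl' hr1 hX) (norm_tl' ?_ hcn))
    exact (norm_sub_le _ _).trans (by linarith)
  have t5 : ∫ x in u..v, ‖cmb f' a x - cmb f b0 x‖ ^ 2 ≤
      2 * C ^ 2 * σ + 2 * R * (2 * (P * (Ct * α + 2 * τ * C)) ^ 2) := by
    refine intb hu huv hv (integrable_norm_sq (hy.memLp_deriv.sub hz.memLp)) d2i
      (fun x => hs_nonneg _) d2 (by positivity) (by positivity) fun x hx => ?_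
    have e : cmb f' a x - cmb f b0 x =
        Matrix.toEuclideanLin (psiM f' x * r - psiM f x * r * F x) c +
        Matrix.toEuclideanLin (psiM f x) (Matrix.toEuclideanLin (r * (F x - F x0)) c) := by
      rw [cmb, cmb, ← hc, hb0, ← tl_mul, ← tl_mul, ← tl_mul, ← tl_sub, ← tl_add]
      congr 2
      simp only [Matrix.mul_sub, Matrix.mul_assoc]
      abel
    rw [e]
    exact sq_bound2 _ hcn (norm_tl' (hP x) (key _ _ _ τ (Matrix.mul_sub _ _ _) (hr2 x hx)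
      (hr2 x0 hx0) (hD x hx).2))
  have t6 : ∫ x in u..v, ‖cmb f' b0 x - cmb f b2 x‖ ^ 2 ≤ 2 * (B * C) ^ 2 * σ
      + 2 * R * (2 * (P * (A * α + (Ct * α + 2 * (τ * B) * C))) ^ 2) := by
    refine intb hu huv hv (integrable_norm_sq (hz.memLp_deriv.sub hw)) d2i
      (fun x => hs_nonneg _) d2 (by positivity) (by positivity) fun x hx => ?_
    have e : cmb f' b0 x - cmb f b2 x =
        Matrix.toEuclideanLin (psiM f' x * r - psiM f x * r * F x)
          (Matrix.toEuclideanLin (F x0) c) +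
        Matrix.toEuclideanLin (psiM f x) (-(Matrix.toEuclideanLin (r * F x)
          (Matrix.toEuclideanLin (F x - F x0) c) +
          Matrix.toEuclideanLin (r * (K * K - F x * F x)) c)) := by
      rw [map_neg, ← sub_eq_add_neg, cmb, cmb, hb0, hb2, ← tl_mul, ← tl_mul, ← tl_mul, ← tl_mul,
        ← tl_add, ← tl_mul, ← tl_sub, ← tl_sub]
      congr 2
      simp only [Matrix.mul_sub, Matrix.sub_mul, Matrix.mul_add, Matrix.mul_assoc]
      abel
    rw [e]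
    refine sq_bound2 _ (norm_tl' (hB x0 hx0) hcn) (norm_tl' (hP x) ?_)
    rw [norm_neg]
    refine (norm_add_le _ _).trans (add_le_add (norm_tl' (hA x hx) (hD x hx).2)
      (key _ (r2 * K * K) (r2 * F x * F x) (τ * B) ?_ ?_ ?_ (hD x hx).1))
    · simp only [Matrix.mul_sub, Matrix.mul_assoc]
    · exact (norm_mul_le _ _).trans (mul_le_mul hr2K hBK (norm_nonneg _) hτ)
    · exact (norm_mul_le _ _).trans (mul_le_mul (hr2 x hx) (hB x hx) (norm_nonneg _) hτ)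
  have t7 := mul_le_mul_of_nonneg_left t6 (show 0 ≤ 1 / (2 * s) by positivity)
  have e7 : 1 / (2 * s) * (2 * (B * C) ^ 2 * σ
      + 2 * R * (2 * (P * (A * α + (Ct * α + 2 * (τ * B) * C))) ^ 2)) =
      1 / s * ((B * C) ^ 2 * σ + 2 * R * (P * (A * α + (Ct * α + 2 * (τ * B) * C))) ^ 2) := by
    field_simp
  rw [e7] at t7
  linarith

theorem cmb_ext0 {n L : ℕ} {f : Fin (n + L) → ℝ → Vec m} {f0 : Fin n → ℝ → Vec m}
    (h : ∀ j, f (Fin.castAdd L j) = f0 j) (a : Vec n) : cmb f (ext0 L a) = cmb f0 a := by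
  funext x
  rw [cmb_eq, cmb_eq, Fin.sum_univ_add]
  simp only [ext0, Fin.append_left, Fin.append_right, h, Pi.zero_apply, zero_smul,
    Finset.sum_const_zero, add_zero]

theorem norm_ext0 {n : ℕ} (L : ℕ) (a : Vec n) : ‖ext0 L a‖ = ‖a‖ := by
  rw [EuclideanSpace.norm_eq, EuclideanSpace.norm_eq, Fin.sum_univ_add]
  simp only [ext0, Fin.append_left, Fin.append_right, Pi.zero_apply, norm_zero, ne_eq,
    OfNat.ofNat_ne_zero, not_false_eq_true, zero_pow, Finset.sum_const_zero, add_zero]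

theorem exists_ker (A : Mat m (m + 1)) : ∃ a : Vec (m + 1), ‖a‖ = 1 ∧
    Matrix.toEuclideanLin A a = 0 := by
  have h : LinearMap.ker (Matrix.toEuclideanLin A) ≠ ⊥ :=
    LinearMap.ker_ne_bot_of_finrank_lt (by simp)
  obtain ⟨b, hb, hb0⟩ := (Submodule.ne_bot_iff _).mp h
  have hn : ‖b‖ ≠ 0 := norm_ne_zero_iff.mpr hb0
  refine ⟨((‖b‖⁻¹ : ℝ) : ℂ) • b, ?_, ?_⟩
  · rw [norm_smul, Complex.norm_real, norm_inv, norm_norm, inv_mul_cancel₀ hn]
  · rw [map_smul, LinearMap.mem_ker.mp hb, smul_zero]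

end Vale.Agent.P371EX
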