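import Vale.Agent.P371EX.A
import Vale.Agent.P371EL.Gr

/-!
Exclusion of more than `m` eigenvalues: an approximate null vector of `K² - F²` is propagated.
-/

namespace Vale.Agent.P371EX

open MeasureTheory Filter Topology Matrix Set
open Vale.Agent.P371 Vale.Agent.P371.G Vale.Agent.P371.PI Vale.Agent.P371E
open scoped ComplexOrder MatrixOrder Matrix.Norms.L2Operator

variable {N : ℕ}

/-- application to a fixed vector -/
noncomputable def ap (c : Vec N) : Mat N N →L[ℝ] Vec N := (TR N).flip c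

theorem ap_apply (c : Vec N) (M : Mat N N) : ap c M = Matrix.toEuclideanLin M c := rfl

theorem norm_ap (c : Vec N) (M : Mat N N) : ‖ap c M‖ ≤ ‖M‖ * ‖c‖ := norm_tl M c

theorem herm_of {K F : Mat N N} (hK : K.IsHermitian) (h : (K + F).PosSemidef) : F.IsHermitian := by
  have h2 : (K + F - K).IsHermitian := h.isHermitian.sub hK
  rwa [add_sub_cancel_left] at h2

theorem norm_F_le {K F : Mat N N} (hK : K.PosSemidef)
    (h : (K - F).PosSemidef ∧ (K + F).PosSemidef) : ‖F‖ ≤ ‖K‖ :=
  norm_le_of_sandwich (nonneg_iff_posSemidef.mpr hK) (herm_of hK.isHermitian h.2)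
    (nonneg_iff_posSemidef.mpr h.2) (nonneg_iff_posSemidef.mpr h.1)

theorem th_eq (ν : ℝ) (Q : Mat N N) : th ν Q = (ν / (1 + ν) : ℝ) • Q := Complex.coe_smul _ _

theorem continuousOn_th {Q : ℝ → Mat N N} {s : Set ℝ} (ν : ℝ) (hQ : ContinuousOn Q s) :
    ContinuousOn (fun x => th ν (Q x)) s := hQ.const_smul ((ν / (1 + ν) : ℝ) : ℂ)

theorem continuousOn_eta {K : Mat N N} {F Q : ℝ → Mat N N} {s : Set ℝ} (ν : ℝ)
    (hF : ContinuousOn F s) (hQ : ContinuousOn Q s) :
    ContinuousOn (fun x => eta K (F x) (th ν (Q x))) s := by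
  have h1 : ContinuousOn (fun x => th ν (Q x) - (K * K - F x * F x)) s :=
    (continuousOn_th ν hQ).sub (continuousOn_const.sub (hF.mul hF))
  have h2 : ContinuousOn (fun x => K * K * F x - F x * (K * K)) s :=
    (continuousOn_const.mul hF).sub (hF.mul continuousOn_const)
  exact h1.norm.add h2.norm

theorem ode_c {ν B R : ℝ} (hν : 0 < ν) (hB : 0 ≤ B) (hR : 0 ≤ R) : ∃ C : ℝ, 0 ≤ C ∧
    ∀ (N : ℕ) (K : Mat N N) (F Q : ℝ → Mat N N) (c : Vec N) (σ x0 : ℝ),
    (∀ x ∈ Icc (-R) R, HasDerivAt F (K * K - F x * F x - Q x) x) → Continuous Q →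
    (∀ x ∈ Icc (-R) R, ‖F x‖ ≤ B) → x0 ∈ Icc (-R) R → Matrix.toEuclideanLin (Q x0) c = 0 →
    eta K (F x0) (th ν (Q x0)) ≤ σ → ∫ x in (-R)..R, eta K (F x) (th ν (Q x)) ≤ σ →
    ∀ x ∈ Icc (-R) R, ‖Matrix.toEuclideanLin (K * K - F x * F x) c‖ ≤ C * σ * ‖c‖ ∧
      ‖Matrix.toEuclideanLin (F x - F x0) c‖ ≤ C * σ * ‖c‖ := by
  set κ : ℝ := (1 + ν) / ν with hκ
  have hκ0 : 0 < κ := by positivity
  set L : ℝ := 2 / ν * B with hL
  have hL0 : 0 ≤ L := by positivity
  set A : ℝ := 1 / ν + 2 * B * κ with hA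
  have hA0 : 0 ≤ A := by positivity
  set C1 : ℝ := (1 + L * A * (R - -R)) * Real.exp (L * (R - -R)) + A with hC1
  have hRR : 0 ≤ R - -R := by linarith
  have hC10 : 0 ≤ C1 := by positivity
  refine ⟨C1 + (1 / ν * C1 * (R - -R) + κ), by positivity, ?_⟩
  intro N K F Q c σ x0 hF hQ hFB hx0 hQc h0 hI
  have hR' : -R ≤ R := by linarith
  have hFc : ContinuousOn F (Icc (-R) R) := fun x hx => (hF x hx).continuousAt.continuousWithinAt
  have hec := continuousOn_eta (K := K) ν hFc hQ.continuousOn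
  have hei : IntervalIntegrable (fun x => eta K (F x) (th ν (Q x))) volume (-R) R :=
    (hec.mono (by rw [uIcc_of_le hR'])).intervalIntegrable
  have hσ : 0 ≤ σ := le_trans (add_nonneg (norm_nonneg _) (norm_nonneg _)) h0
  have hc0 := norm_nonneg c
  set D : ℝ → Mat N N := fun x => K * K - F x * F x with hD
  set e : ℝ → Mat N N := fun x => κ • (D x - th ν (Q x)) with he
  have hDc : ContinuousOn D (Icc (-R) R) := continuousOn_const.sub (hFc.mul hFc)
  have hec' : ContinuousOn e (Icc (-R) R) :=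
    (hDc.sub (continuousOn_th ν hQ.continuousOn)).const_smul κ
  have hF' : ∀ x, K * K - F x * F x - Q x = (-(1 / ν) : ℝ) • D x + e x := by
    intro x
    simp only [he, hD, th_eq, hκ]
    match_scalars <;> field_simp <;> ring
  have hen : ∀ x, ‖e x‖ ≤ κ * eta K (F x) (th ν (Q x)) := by
    intro x
    rw [he, norm_smul, Real.norm_of_nonneg hκ0.le, norm_sub_rev]
    exact mul_le_mul_of_nonneg_left (le_add_of_nonneg_right (norm_nonneg _)) hκ0.le
  set er : ℝ → Mat N N := fun x => (1 / ν : ℝ) • (K * K * F x - F x * (K * K))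
    - (e x * F x + F x * e x) with her
  have herc : ContinuousOn er (Icc (-R) R) :=
    (((continuousOn_const.mul hFc).sub (hFc.mul continuousOn_const)).const_smul (1 / ν : ℝ)).sub
      ((hec'.mul hFc).add (hFc.mul hec'))
  have hern : ∀ x ∈ Icc (-R) R, ‖ap c (er x)‖ ≤ A * ‖c‖ * eta K (F x) (th ν (Q x)) := by
    intro x hx
    refine (norm_ap c _).trans ?_
    have h1 : ‖er x‖ ≤ A * eta K (F x) (th ν (Q x)) := by
      have h2 : ‖(1 / ν : ℝ) • (K * K * F x - F x * (K * K))‖ ≤ 1 / ν * eta K (F x) (th ν (Q x)) := by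
        rw [norm_smul, Real.norm_of_nonneg (by positivity)]
        exact mul_le_mul_of_nonneg_left (le_add_of_nonneg_left (norm_nonneg _)) (by positivity)
      have h3 : ‖e x * F x‖ ≤ κ * eta K (F x) (th ν (Q x)) * B :=
        (norm_mul_le _ _).trans (mul_le_mul (hen x) (hFB x hx) (norm_nonneg _)
          ((norm_nonneg _).trans (hen x)))
      have h4 : ‖F x * e x‖ ≤ B * (κ * eta K (F x) (th ν (Q x))) :=
        (norm_mul_le _ _).trans (mul_le_mul (hFB x hx) (hen x) (norm_nonneg _) hB)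
      have h5 := norm_sub_le ((1 / ν : ℝ) • (K * K * F x - F x * (K * K))) (e x * F x + F x * e x)
      have h6 := norm_add_le (e x * F x) (F x * e x)
      rw [hA]
      linarith
    have := mul_le_mul_of_nonneg_right h1 hc0
    linarith
  have hint : ∀ (g : ℝ → Mat N N) (a : ℝ), 0 ≤ a → ContinuousOn g (Icc (-R) R) →
      (∀ x ∈ Icc (-R) R, ‖ap c (g x)‖ ≤ a * ‖c‖ * eta K (F x) (th ν (Q x))) →
      ∫ x in (-R)..R, ‖ap c (g x)‖ ≤ a * σ * ‖c‖ := by
    intro g a ha hg hb
    have h1 : ContinuousOn (fun x => ‖ap c (g x)‖) (uIcc (-R) R) := by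
      rw [uIcc_of_le hR']
      exact ((ap c).continuous.comp_continuousOn hg).norm
    have h2 := intervalIntegral.integral_mono_on hR' h1.intervalIntegrable (hei.const_mul _) hb
    rw [intervalIntegral.integral_const_mul] at h2
    have h3 := mul_le_mul_of_nonneg_left hI (mul_nonneg ha hc0)
    linarith
  have hI1 := hint er A hA0 herc hern
  have hI2 := hint e κ hκ0.le hec' fun x _ => by
    have h1 := (norm_ap c (e x)).trans (mul_le_mul_of_nonneg_right (hen x) hc0)
    linarith
  have hZ : ∀ x ∈ Icc (-R) R, ‖ap c (D x)‖ ≤ C1 * σ * ‖c‖ := by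
    intro x hx
    have h := P371EL.gr_int (v := fun y => ap c (D y)) (w := fun y => ap c ((2 / ν : ℝ) • (F y * D y)))
      (e := fun y => ap c (er y)) (a := -R) (b := R) (L := L) (c := 0) hL0 le_rfl
      (fun y hy => by
        have h1 : HasDerivAt D ((2 / ν : ℝ) • (F y * D y) + er y) y := by
          refine (((hF y hy).mul (hF y hy)).const_sub (K * K)).congr_deriv ?_
          rw [hF' y]
          simp only [her, hD, mul_add, add_mul, smul_mul_assoc, mul_smul_comm, sub_mul, mul_sub,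
            mul_assoc]
          match_scalars <;> ring
        have h2 := (ap c).hasFDerivAt.comp_hasDerivAt y h1
        rw [map_add] at h2
        exact h2.hasDerivWithinAt)
      ((ap c).continuous.comp_continuousOn herc)
      (fun y hy => by
        rw [map_smul, norm_smul, Real.norm_of_nonneg (by positivity), ap_apply, tl_mul, add_zero, hL,
          mul_assoc]
        refine mul_le_mul_of_nonneg_left ((norm_tl _ _).trans ?_) (by positivity)
        exact mul_le_mul_of_nonneg_right (hFB y hy) (norm_nonneg _)) hx0 hx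
    have h1 : ‖ap c (D x0)‖ ≤ σ * ‖c‖ := by
      have h2 : ap c (D x0) = ap c (D x0 - th ν (Q x0)) := by
        rw [map_sub (ap c) (D x0), th_eq, map_smul, ap_apply c (Q x0), hQc, smul_zero, sub_zero]
      rw [h2]
      refine (norm_ap c _).trans (mul_le_mul_of_nonneg_right (le_trans ?_ h0) hc0)
      rw [norm_sub_rev]
      exact le_add_of_nonneg_right (norm_nonneg _)
    refine h.trans ?_
    have h3 : L * (∫ y in (-R)..R, ‖ap c (er y)‖) * (R - -R) ≤ L * (A * σ * ‖c‖) * (R - -R) :=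
      mul_le_mul_of_nonneg_right (mul_le_mul_of_nonneg_left hI1 hL0) hRR
    have h4 : (‖ap c (D x0)‖ + (L * (∫ y in (-R)..R, ‖ap c (er y)‖) + 0) * (R - -R)) *
        Real.exp (L * (R - -R)) ≤ (σ * ‖c‖ + L * (A * σ * ‖c‖) * (R - -R)) *
        Real.exp (L * (R - -R)) := by
      refine mul_le_mul_of_nonneg_right ?_ (Real.exp_pos _).le
      rw [add_zero]
      linarith
    rw [hC1]
    linarith
  intro x hx
  have hp : 0 ≤ σ * ‖c‖ := mul_nonneg hσ hc0
  have hp1 : 0 ≤ C1 * (σ * ‖c‖) := mul_nonneg hC10 hp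
  have hp2 : 0 ≤ (1 / ν * C1 * (R - -R) + κ) * (σ * ‖c‖) := mul_nonneg (by positivity) hp
  refine ⟨by have := hZ x hx; rw [ap_apply] at this; linarith, ?_⟩
  have h := P371EL.gr_int (v := fun y => ap c (F y - F x0))
    (w := fun y => ap c ((-(1 / ν) : ℝ) • D y)) (e := fun y => ap c (e y)) (a := -R) (b := R)
    (L := 0) (c := 1 / ν * (C1 * σ * ‖c‖)) le_rfl (by positivity)
    (fun y hy => by
      have h1 := (hF y hy).sub_const (F x0)
      rw [hF' y] at h1
      have h2 := (ap c).hasFDerivAt.comp_hasDerivAt y h1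
      rw [map_add] at h2
      exact h2.hasDerivWithinAt)
    ((ap c).continuous.comp_continuousOn hec')
    (fun y hy => by
      rw [map_smul, norm_smul, norm_neg, Real.norm_of_nonneg (by positivity), zero_mul, zero_add]
      exact mul_le_mul_of_nonneg_left (hZ y hy) (by positivity)) hx0 hx
  simp only [sub_self, map_zero, norm_zero, zero_mul, zero_add, Real.exp_zero, mul_one] at h
  rw [ap_apply] at h
  linarith

end Vale.Agent.P371EX
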