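import Vale.Agent.P371EX.M

/-!
Exclusion of more than `m` eigenvalues: the properties of the weight `r`, as a proposition.
-/

namespace Vale.Agent.P371EX

open MeasureTheory Filter Topology Matrix Set
open Vale.Agent.P371 Vale.Agent.P371.G Vale.Agent.P371.PI Vale.Agent.P371E
open scoped ComplexOrder MatrixOrder Matrix.Norms.L2Operator

/-- extension by zero -/
noncomputable def ext0 {n : ℕ} (L : ℕ) (a : Vec n) : Vec (n + L) :=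
  WithLp.toLp 2 (Fin.append a.ofLp (0 : Fin L → ℂ))

/-- properties of the weight `r` of an approximant, uniform in the size of the system -/
def RR : Prop := ∀ γ : ℝ, 1 / 2 < γ → γ < 3 / 2 → ∀ (m n : ℕ) (W : ℝ → Mat m m)
  (lam0 : Fin n → ℝ), (∀ j, lam0 j < 0) → ∃ C : ℝ, 0 ≤ C ∧ ∀ τ : ℝ, 0 < τ → ∃ Ct : ℝ, 0 ≤ Ct ∧
  ∀ (L : ℕ) (lam : Fin (n + L) → ℝ) (f f' : Fin (n + L) → ℝ → Vec m) (R σ ε : ℝ)
    (V : ℝ → Mat m m) (K r : Mat (n + L) (n + L)) (F : ℝ → Mat (n + L) (n + L)),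
  Apx γ W lam f f' R σ ε V K r F → (∀ j, lam j < 0) → (∀ j, lam (Fin.castAdd L j) = lam0 j) →
  (∃ r1 r2 : Mat (n + L) (n + L), r = r1 + r2 ∧ ‖r1‖ ≤ Ct ∧ ∀ G : Mat (n + L) (n + L),
    (K - G).PosSemidef → (K + G).PosSemidef → ‖r2 * G‖ ≤ τ) ∧
  ∀ a : Vec n, ∃ c : Vec (n + L), Matrix.toEuclideanLin r c = ext0 L a ∧ ‖c‖ ≤ C * ‖a‖ ∧
    -(C * √σ * ‖a‖ ^ 2) ≤ (inner ℂ (ext0 L a) (Matrix.toEuclideanLin (r * (K * K)) c) : ℂ).re

end Vale.Agent.P371EX
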